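import Vale.Agent.P329.H559.Wlk
import Vale.Agent.P329.H434.Nil
import Vale.Agent.P329.H434.Clock
import Mathlib.GroupTheory.FiniteAbelian.Basic
import Mathlib.Algebra.Group.Pi.Lemmas

/-!
# P329 / window sums with clocks modulo powers of two, with values modulo any odd number
-/

set_option linter.all false

namespace Vale.Agent.P329.H559

open Vale.Agent.P329

/-- sum of the kicks at the block ends -/
def W {α : Type} (N i₀ : ℕ) (τ : List α → α → ℤ) : List α → ℤ
  | [] => 0
  | b :: X => W N i₀ τ X + if N ∣ X.length + 1 + i₀ then τ X b else 0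

section

variable {α : Type} {N i₀ r c m : ℕ} [NeZero m] {τ : List α → α → ℤ}

open Classical in
/-- the kicks in terms of memory -/
noncomputable def dwF (i₀ r c : ℕ) (τ : List α → α → ℤ) (b : α) (Z : List α) : ℤ :=
  if h : ∃ X : List α, (X.length + i₀ + 1) % 2 ^ r = 0 ∧ X.take c = Z.take c then
    -τ h.choose b else 1

/-- the kicks in terms of memory -/
noncomputable def dwE (i₀ r c : ℕ) (τ : List α → α → ℤ) : List α → ℤ
  | [] => 1
  | b :: Z => dwF i₀ r c τ b Z

theorem dwE_pm (hτ : ∀ X b, τ X b = 1 ∨ τ X b = -1) (Z : List α) :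
    dwE i₀ r c τ Z = 1 ∨ dwE i₀ r c τ Z = -1 := by
  cases Z with
  | nil => exact Or.inl rfl
  | cons b Z =>
    rw [dwE]
    unfold dwF
    split
    · rename_i h
      rcases hτ h.choose b with h1 | h1 <;> rw [h1]
      · exact Or.inr rfl
      · exact Or.inl (neg_neg _)
    · exact Or.inl rfl

theorem dwE_eq (hτl : ∀ X Y b, X.length % 2 ^ r = Y.length % 2 ^ r → X.take c = Y.take c →
    τ X b = τ Y b) {X Z : List α} {b : α} (hj : (X.length + i₀ + 1) % 2 ^ r = 0)
    (hZ : Z.take c = X.take c) : dwE i₀ r c τ (b :: Z) = -τ X b := by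
  have h : ∃ Y : List α, (Y.length + i₀ + 1) % 2 ^ r = 0 ∧ Y.take c = Z.take c :=
    ⟨X, hj, hZ.symm⟩
  rw [dwE]
  unfold dwF
  rw [dif_pos h]
  obtain ⟨h1, h2⟩ := h.choose_spec
  congr 1
  refine hτl _ _ _ ?_ (h2.trans hZ)
  have h3 : (h.choose.length + (i₀ + 1)) % 2 ^ r = (X.length + (i₀ + 1)) % 2 ^ r := by
    rw [← Nat.add_assoc, ← Nat.add_assoc, h1, hj]
  exact Nat.ModEq.add_right_cancel' (i₀ + 1) h3

/-- the state describes the history -/
def Inw (m N i₀ : ℕ) (τ : List α → α → ℤ) (X : List α) (x : Sw m α N) : Prop :=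
  x.1 = ((W N i₀ τ X : ℤ) : ZMod m) ∧ x.2.2.1 = (X.length + i₀) % N ∧
    (x.2.1.1 = X.take N ∨ x.2.1.1 = X.take x.2.2.1)

theorem inw_fin (hN : N = 2 ^ (r + 1)) (hc : c < N)
    (hτl : ∀ X Y b, X.length % 2 ^ r = Y.length % 2 ^ r → X.take c = Y.take c → τ X b = τ Y b)
    (rt : Sw m α N) (hr1 : rt.1 = 0) (hr2 : rt.2.1.1 = []) (hr3 : rt.2.2.1 = 0) (w : List α) :
    ∀ (X : List α) (x : Sw m α N), Inw m N i₀ τ X x →
      Inw m N i₀ τ (w.reverse ++ X) (fin (stw (dwE i₀ r c τ)) rt x w) := by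
  have hN0 : 0 < N := by rw [hN]; exact pow_pos (by norm_num) _
  have hd : 2 ^ r ∣ N := by rw [hN]; exact pow_dvd_pow 2 (Nat.le_succ r)
  induction w with
  | nil => intro X x hx; exact hx
  | cons b w ih =>
    intro X x hx
    obtain ⟨h1, h2, h3⟩ := hx
    have hlt : x.2.2.1 < N := x.2.2.2
    have hlen : (b :: X).length + i₀ = X.length + i₀ + 1 := by rw [List.length_cons]; omega
    rw [List.reverse_cons, List.append_assoc, List.singleton_append]
    by_cases h4 : x.2.2.1 + 1 < N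
    · obtain ⟨t, h5, h6, h7, h8⟩ := stw_mid (dl := dwE i₀ r c τ) (b := b) h4
      rw [fin_cons_some _ h5]
      have h9 : (X.length + i₀ + 1) % N = x.2.2.1 + 1 := by
        rw [← Nat.mod_add_mod, ← h2, Nat.mod_eq_of_lt h4]
      have h10 : ¬ N ∣ X.length + 1 + i₀ := by
        intro h
        have := Nat.mod_eq_zero_of_dvd h
        rw [show X.length + 1 + i₀ = X.length + i₀ + 1 by omega, h9] at this
        omega
      refine ih _ _ ⟨?_, ?_, ?_⟩
      · rw [h6, h1, W, if_neg h10, add_zero]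
      · rw [h8, hlen, h9]
      · rcases h3 with h3 | h3
        · left
          rw [h7, h3, cons_take_take]
        · right
          rw [h7, h8, h3, List.take_succ_cons, List.take_of_length_le]
          rw [List.length_cons, List.length_take]
          have := Nat.min_le_left x.2.2.1 X.length
          omega
    · have h5 : x.2.2.1 + 1 = N := by omega
      have hH : (b :: x.2.1.1).take N = (b :: X).take N := by
        rcases h3 with h3 | h3
        · rw [h3, cons_take_take]
        · rw [h3, cons_take_of h5]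
      have h9 : (X.length + i₀ + 1) % N = 0 := by
        rw [← Nat.mod_add_mod, ← h2, h5, Nat.mod_self]
      have h10 : N ∣ X.length + 1 + i₀ := by
        rw [show X.length + 1 + i₀ = X.length + i₀ + 1 by omega]
        exact Nat.dvd_of_mod_eq_zero h9
      have hdl : dwE i₀ r c τ ((b :: x.2.1.1).take N) = -τ X b := by
        rw [hH]
        obtain ⟨M, rfl⟩ : ∃ M, N = M + 1 := ⟨N - 1, by omega⟩
        rw [List.take_succ_cons]
        refine dwE_eq hτl ?_ ?_
        · have h11 := Nat.mod_mod_of_dvd (X.length + i₀ + 1) hd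
          rw [h9, Nat.zero_mod] at h11
          exact h11.symm
        · rw [List.take_take, Nat.min_eq_left (Nat.le_of_lt_succ hc)]
      have hW : ((W N i₀ τ (b :: X) : ℤ) : ZMod m) =
          x.1 - ((dwE i₀ r c τ ((b :: x.2.1.1).take N) : ℤ) : ZMod m) := by
        rw [hdl, W, if_pos h10, h1]
        push_cast
        ring
      by_cases h6 : x.1 - ((dwE i₀ r c τ ((b :: x.2.1.1).take N) : ℤ) : ZMod m) = 0
      · rw [fin_cons_none _ (stw_cut h4 h6)]
        refine ih _ _ ⟨?_, ?_, ?_⟩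
        · rw [hW, h6, hr1]
        · rw [hr3, hlen, h9]
        · right
          rw [hr2, hr3, List.take_zero]
      · obtain ⟨t, h11, h12, h13, h14⟩ := stw_end (dl := dwE i₀ r c τ) h4 h6
        rw [fin_cons_some _ h11]
        refine ih _ _ ⟨?_, ?_, ?_⟩
        · rw [h12, hW]
        · rw [h14, hlen, h9]
        · left
          rw [h13, hH]

theorem knW (m : ℕ) [NeZero m] (α : Type) [Finite α] (r i₀ c : ℕ) (hc : c < 2 ^ (r + 1))
    (τ : List α → α → ℤ) (hτ : ∀ X b, τ X b = 1 ∨ τ X b = -1)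
    (hτl : ∀ X Y b, X.length % 2 ^ r = Y.length % 2 ^ r → X.take c = Y.take c → τ X b = τ Y b) :
    Kn fun w : List α => ((W (2 ^ (r + 1)) i₀ τ w.reverse : ℤ) : ZMod m) := by
  have hN0 : 0 < 2 ^ (r + 1) := pow_pos (by norm_num) _
  have hno := nocyw (m := m) (α := α) (N := 2 ^ (r + 1)) (dl := dwE i₀ r c τ) (q := r)
    rfl (dwE_pm hτ)
  let rt : Sw m α (2 ^ (r + 1)) := (0, ⟨[], Nat.zero_le _⟩, ⟨0, hN0⟩)
  let st : Sw m α (2 ^ (r + 1)) := (0, ⟨[], Nat.zero_le _⟩, ⟨i₀ % 2 ^ (r + 1), Nat.mod_lt _ hN0⟩)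
  have h1 := (Kn.of_event hno rt st).comp fun x => x.1
  intro v
  refine Eq.mp (congrArg (SH 1) ?_) (h1 v)
  ext w
  have h2 : Inw m (2 ^ (r + 1)) i₀ τ [] st :=
    ⟨by change (0 : ZMod m) = ((W _ _ _ [] : ℤ) : ZMod m); rw [W, Int.cast_zero], by
      change i₀ % 2 ^ (r + 1) = (0 + i₀) % 2 ^ (r + 1)
      rw [Nat.zero_add], Or.inl List.take_nil.symm⟩
  have h3 := (inw_fin (i₀ := i₀) rfl hc hτl rt rfl rfl rfl w [] st h2).1
  rw [List.append_nil] at h3
  change (fin _ rt st w).1 = v ↔ ((W _ _ _ _ : ℤ) : ZMod m) = v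
  rw [h3]

end

/-- sum of all kicks -/
def SS {α : Type} {A : Type} [AddMonoid A] (t : List α → α → A) : List α → A
  | [] => 0
  | b :: X => SS t X + t X b

theorem SS_eq {α : Type} {N : ℕ} (hN : 0 < N) {t : List α → α → ℤ} (X : List α) :
    SS t X = ∑ i ∈ Finset.range N, W N i t X := by
  induction X with
  | nil => exact (Finset.sum_eq_zero fun i _ => rfl).symm
  | cons b X ih =>
    rw [SS, ih]
    simp only [W]
    rw [Finset.sum_add_distrib, sum_phase N hN (t X b) (X.length + 1)]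

theorem SS_sum {α ι : Type} (S : Finset ι) {A : Type} [AddCommMonoid A]
    (t : ι → List α → α → A) (X : List α) :
    ∑ i ∈ S, SS (t i) X = SS (fun X b => ∑ i ∈ S, t i X b) X := by
  induction X with
  | nil => exact Finset.sum_eq_zero fun i _ => rfl
  | cons b X ih =>
    simp only [SS]
    rw [Finset.sum_add_distrib, ih]

theorem SS_cast {α : Type} {m : ℕ} (t : List α → α → ℤ) (X : List α) :
    ((SS t X : ℤ) : ZMod m) = SS (fun X b => ((t X b : ℤ) : ZMod m)) X := by
  induction X with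
  | nil => exact Int.cast_zero
  | cons b X ih => rw [SS, SS, Int.cast_add, ih]

/-- a number is a sum of signs -/
theorem sum_signs {m : ℕ} (a : ℕ) (ha : a ≤ m) :
    ∑ j ∈ Finset.range m, (if j < a then (1 : ℤ) else -1) = 2 * a - m := by
  rw [Finset.sum_ite, Finset.sum_const, Finset.sum_const]
  have h1 : (Finset.range m).filter (fun j => j < a) = Finset.range a := by
    ext j
    simp only [Finset.mem_filter, Finset.mem_range]
    omega
  have h2 : ((Finset.range m).filter (fun j => ¬ j < a)).card = m - a := by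
    have h3 := Finset.card_filter_add_card_filter_not (s := Finset.range m) (fun j => j < a)
    rw [h1, Finset.card_range, Finset.card_range] at h3
    omega
  rw [h1, h2, Finset.card_range]
  push_cast [Nat.cast_sub ha]
  simp only [smul_eq_mul, mul_one, mul_neg, nsmul_eq_mul]
  push_cast [Nat.cast_sub ha]
  ring

/-- **window sums modulo odd numbers, with clocks modulo powers of two** -/
theorem KS (m : ℕ) (hm : Odd m) (α : Type) [Finite α] (l c : ℕ) (t : List α → α → ZMod m)
    (hl : ∀ X Y b, X.length % 2 ^ l = Y.length % 2 ^ l → X.take c = Y.take c → t X b = t Y b) :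
    Kn fun w : List α => SS t w.reverse := by
  haveI : NeZero m := ⟨hm.pos.ne'⟩
  have hc : c < 2 ^ (l + c + 1) := by
    calc c < 2 ^ c := Nat.lt_two_pow_self
      _ ≤ 2 ^ (l + c + 1) := Nat.pow_le_pow_right (by norm_num) (by omega)
  have hlc : ∀ X Y : List α, X.length % 2 ^ (l + c) = Y.length % 2 ^ (l + c) →
      X.length % 2 ^ l = Y.length % 2 ^ l := fun X Y h =>
    Nat.ModEq.of_dvd (pow_dvd_pow 2 (by omega)) h
  have h2 : (2 : ZMod m) * (2 : ZMod m)⁻¹ = 1 := by
    have := ZMod.coe_mul_inv_eq_one (n := m) 2 (Nat.Coprime.symm (hm.coprime_two_right))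
    simpa using this
  let τ : ℕ → List α → α → ℤ := fun j X b =>
    if j < (t X b * (2 : ZMod m)⁻¹).val then 1 else -1
  have hτ : ∀ j X b, τ j X b = 1 ∨ τ j X b = -1 := by
    intro j X b
    change (if _ then _ else _) = _ ∨ (if _ then _ else _) = _
    split
    · exact Or.inl rfl
    · exact Or.inr rfl
  have h3 : ∀ X b, ∑ j ∈ Finset.range m, ((τ j X b : ℤ) : ZMod m) = t X b := by
    intro X b
    rw [← Int.cast_sum, sum_signs _ (ZMod.val_lt _).le]
    push_cast
    rw [ZMod.natCast_zmod_val, ZMod.natCast_self, sub_zero, mul_comm (t X b), ← mul_assoc, h2,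
      one_mul]
  have h4 := kn_sum (Finset.range m) fun j _ => kn_sum (Finset.range (2 ^ (l + c + 1))) fun i _ =>
    knW m α (l + c) i c hc (τ j) (hτ j) (fun X Y b h h' => by
      change (if _ then _ else _) = (if _ then _ else _)
      rw [hl X Y b (hlc _ _ h) h'])
  intro v
  refine Eq.mp (congrArg (SH 1) ?_) (h4 v)
  ext w
  beta_reduce
  rw [Set.mem_ofPred_eq, Set.mem_ofPred_eq]
  have h5 : ∑ j ∈ Finset.range m, ∑ i ∈ Finset.range (2 ^ (l + c + 1)),
      ((W (2 ^ (l + c + 1)) i (τ j) w.reverse : ℤ) : ZMod m) = SS t w.reverse := by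
    have h6 : ∀ j, ∑ i ∈ Finset.range (2 ^ (l + c + 1)),
        ((W (2 ^ (l + c + 1)) i (τ j) w.reverse : ℤ) : ZMod m) =
        SS (fun X b => ((τ j X b : ℤ) : ZMod m)) w.reverse := by
      intro j
      rw [← Int.cast_sum, ← SS_eq (pow_pos (by norm_num) _), SS_cast]
    rw [Finset.sum_congr rfl fun j _ => h6 j, SS_sum]
    congr 1
    funext X b
    exact h3 X b
  rw [h5]

theorem hp_SS {α : Type} {m : ℕ} (χ : List α → α → Multiplicative (ZMod m)) (X : List α) :
    H157.hp χ X = Multiplicative.ofAdd (SS (fun X b => (χ X b).toAdd) X) := by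
  induction X with
  | nil => rfl
  | cons b X ih => rw [H157.hp, ih, SS]; rfl

theorem ctxK_odd (m : ℕ) (hm : Odd m) (l : ℕ) :
    H434.CtxK (2 ^ l) (Multiplicative (ZMod m)) := by
  intro α _ c χ hχ S
  haveI : NeZero m := ⟨hm.pos.ne'⟩
  have h1 := KS m hm α l c (fun X b => (χ X b).toAdd) fun X Y b h h' => by rw [hχ X Y b h h']
  have h2 := H434.kn_set h1 {x | Multiplicative.ofAdd x ∈ S}
  refine Eq.mp (congrArg (SH 1) ?_) h2
  ext w
  change Multiplicative.ofAdd (SS (fun X b => (χ X b).toAdd) w.reverse) ∈ S ↔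
    H157.hp χ w.reverse ∈ S
  rw [hp_SS]

theorem CtxK_inj {n : ℕ} {ι : Type} [Finite ι] {H : ι → Type} [∀ i, Group (H i)]
    [∀ i, Finite (H i)] (h : ∀ i, H434.CtxK n (H i)) {G : Type} [Group G] (f : ∀ i, G →* H i)
    (hf : ∀ g, (∀ i, f i g = 1) → g = 1) : H434.CtxK n G := by
  have hF : Function.Injective (Pi.monoidHom f) := by
    rw [injective_iff_map_eq_one]
    intro g hg
    exact hf g fun i => congrFun hg i
  exact (H434.CtxK.pi h).div (Pi.monoidHom f).range (MonoidHom.ofInjective hF).symm.toMonoidHom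
    (MonoidHom.ofInjective hF).symm.surjective

theorem ctxK_two (h2 : ∀ (K : Type) [Group K] [Finite K], IsPGroup 2 K → H434.CtxK 1 K) (a l : ℕ) :
    H434.CtxK (2 ^ l) (Multiplicative (ZMod (2 ^ a))) := by
  haveI : NeZero (2 ^ a) := ⟨pow_ne_zero a two_ne_zero⟩
  refine H434.CtxK.clock_p h2 ?_ l
  refine IsPGroup.of_card (n := a) ?_
  rw [Nat.card_congr (Multiplicative.toAdd : Multiplicative (ZMod (2 ^ a)) ≃ ZMod (2 ^ a)),
    Nat.card_zmod]

theorem ctxK_zmod (h2 : ∀ (K : Type) [Group K] [Finite K], IsPGroup 2 K → H434.CtxK 1 K)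
    {n : ℕ} (hn : n ≠ 0) (l : ℕ) : H434.CtxK (2 ^ l) (Multiplicative (ZMod n)) := by
  obtain ⟨a, k, hk, rfl⟩ := Nat.exists_eq_two_pow_mul_odd hn
  haveI : NeZero (2 ^ a) := ⟨pow_ne_zero a two_ne_zero⟩
  haveI : NeZero k := ⟨hk.pos.ne'⟩
  haveI : NeZero (2 ^ a * k) := ⟨hn⟩
  let M : Bool → ℕ := fun b => if b then 2 ^ a else k
  have hd : ∀ b, M b ∣ 2 ^ a * k := by
    intro b
    cases b
    · exact dvd_mul_left _ _
    · exact dvd_mul_right _ _
  haveI : ∀ b, NeZero (M b) := by
    intro b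
    cases b
    · exact ⟨hk.pos.ne'⟩
    · exact ⟨pow_ne_zero a two_ne_zero⟩
  refine CtxK_inj (ι := Bool) (H := fun b => Multiplicative (ZMod (M b))) (fun b => ?_)
    (fun b => AddMonoidHom.toMultiplicative (ZMod.castHom (hd b) (ZMod (M b))).toAddMonoidHom)
    fun g hg => ?_
  · cases b
    · exact ctxK_odd k hk l
    · exact ctxK_two h2 a l
  · have h3 : ∀ b, (M b) ∣ (g.toAdd).val := by
      intro b
      have h4 : ZMod.castHom (hd b) (ZMod (M b)) g.toAdd = 0 := hg b
      rw [← ZMod.natCast_zmod_val g.toAdd, map_natCast] at h4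
      exact (ZMod.natCast_eq_zero_iff _ _).mp h4
    have h5 : 2 ^ a * k ∣ (g.toAdd).val :=
      Nat.Coprime.mul_dvd_of_dvd_of_dvd (Nat.Coprime.pow_left a hk.coprime_two_left)
        (h3 true) (h3 false)
    have h6 : g.toAdd = 0 := by
      rw [← ZMod.natCast_zmod_val g.toAdd]
      exact (ZMod.natCast_eq_zero_iff _ _).mpr h5
    exact h6

/-- **context products in finite abelian groups, with clocks modulo powers of two** -/
theorem ctxK_comm (h2 : ∀ (K : Type) [Group K] [Finite K], IsPGroup 2 K → H434.CtxK 1 K)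
    {G : Type} [Group G] [Finite G] (hG : ∀ a b : G, a * b = b * a) (l : ℕ) :
    H434.CtxK (2 ^ l) G := by
  letI : CommGroup G := { (inferInstance : Group G) with mul_comm := hG }
  obtain ⟨ι, hι, n, hn, ⟨e⟩⟩ := CommGroup.equiv_prod_multiplicative_zmod_of_finite G
  haveI : ∀ i, NeZero (n i) := fun i => ⟨by have := hn i; omega⟩
  exact (H434.CtxK.pi fun i => ctxK_zmod h2 (by have := hn i; omega) l).equiv e.symm

end Vale.Agent.P329.H559
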