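import Vale.Agent.P329.H559.Sys
import Mathlib.Data.Set.Finite.List

/-!
# P329 / twisted sums over `ZMod 3` are known
-/

set_option linter.all false

namespace Vale.Agent.P329.H559

open Vale.Agent.P329

/-- twisted sum of the kicks at the block ends -/
def V {α : Type} (N i₀ : ℕ) (s τ : List α → α → ZMod 3) : List α → ZMod 3
  | [] => 0
  | b :: X => s X b * V N i₀ s τ X + if N ∣ X.length + 1 + i₀ then τ X b else 0

/-- twisted sum of all kicks -/
def TW {α : Type} (s t : List α → α → ZMod 3) : List α → ZMod 3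
  | [] => 0
  | b :: X => s X b * TW s t X + t X b

instance finMem (α : Type) [Finite α] (N : ℕ) : Finite {H : List α // H.length ≤ N} :=
  (List.finite_length_le α N).to_subtype

section

variable {α : Type} {N i₀ r c : ℕ} {s τ : List α → α → ZMod 3}

open Classical in
/-- the signs in terms of phase and memory -/
noncomputable def sgF (i₀ r c : ℕ) (s : List α → α → ZMod 3) (j : ℕ) (Z : List α) (b : α) :
    ZMod 3 :=
  if h : ∃ X : List α, (X.length + i₀) % 2 ^ r = j ∧ X.take c = Z.take c then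
    s h.choose b else 1

/-- the signs in terms of phase and memory -/
noncomputable def sgE (i₀ r c : ℕ) (s : List α → α → ZMod 3) : ℕ → List α → α → ZMod 3 :=
  fun j Z b => sgF i₀ r c s (j % 2 ^ r) Z b

open Classical in
/-- the kicks in terms of memory -/
noncomputable def dlF (i₀ r c : ℕ) (τ : List α → α → ZMod 3) (b : α) (Z : List α) : ZMod 3 :=
  if h : ∃ X : List α, (X.length + i₀ + 1) % 2 ^ r = 0 ∧ X.take c = Z.take c then
    -τ h.choose b else 1

/-- the kicks in terms of memory -/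
noncomputable def dlE (i₀ r c : ℕ) (τ : List α → α → ZMod 3) : List α → ZMod 3
  | [] => 1
  | b :: Z => dlF i₀ r c τ b Z

theorem sgE_pm (hs : ∀ X b, s X b = 1 ∨ s X b = -1) (i : ℕ) (H : List α) (b : α) :
    sgE i₀ r c s i H b = 1 ∨ sgE i₀ r c s i H b = -1 := by
  unfold sgE sgF
  split
  · exact hs _ _
  · exact Or.inl rfl

theorem dlE_pm (hτ : ∀ X b, τ X b = 1 ∨ τ X b = -1) (Z : List α) :
    dlE i₀ r c τ Z = 1 ∨ dlE i₀ r c τ Z = -1 := by
  cases Z with
  | nil => exact Or.inl rfl
  | cons b Z =>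
    rw [dlE]
    unfold dlF
    split
    · rename_i h
      rcases hτ h.choose b with h1 | h1 <;> rw [h1]
      · exact Or.inr rfl
      · exact Or.inl (neg_neg _)
    · exact Or.inl rfl

theorem sgE_per (i : ℕ) (H : List α) (b : α) :
    sgE i₀ r c s (i + 2 ^ r) H b = sgE i₀ r c s i H b := by
  unfold sgE
  rw [Nat.add_mod_right]

theorem sgE_eq (hsl : ∀ X Y b, X.length % 2 ^ r = Y.length % 2 ^ r → X.take c = Y.take c →
    s X b = s Y b) {X Z : List α} {b : α} {j : ℕ} (hj : j % 2 ^ r = (X.length + i₀) % 2 ^ r)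
    (hZ : Z.take c = X.take c) : sgE i₀ r c s j Z b = s X b := by
  have h : ∃ Y : List α, (Y.length + i₀) % 2 ^ r = j % 2 ^ r ∧ Y.take c = Z.take c :=
    ⟨X, hj.symm, hZ.symm⟩
  unfold sgE sgF
  rw [dif_pos h]
  obtain ⟨h1, h2⟩ := h.choose_spec
  refine hsl _ _ _ ?_ (h2.trans hZ)
  exact Nat.ModEq.add_right_cancel' i₀ (h1.trans hj)

theorem dlE_eq (hτl : ∀ X Y b, X.length % 2 ^ r = Y.length % 2 ^ r → X.take c = Y.take c →
    τ X b = τ Y b) {X Z : List α} {b : α} (hj : (X.length + i₀ + 1) % 2 ^ r = 0)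
    (hZ : Z.take c = X.take c) : dlE i₀ r c τ (b :: Z) = -τ X b := by
  have h : ∃ Y : List α, (Y.length + i₀ + 1) % 2 ^ r = 0 ∧ Y.take c = Z.take c :=
    ⟨X, hj, hZ.symm⟩
  rw [dlE]
  unfold dlF
  rw [dif_pos h]
  obtain ⟨h1, h2⟩ := h.choose_spec
  congr 1
  refine hτl _ _ _ ?_ (h2.trans hZ)
  have h3 : (h.choose.length + (i₀ + 1)) % 2 ^ r = (X.length + (i₀ + 1)) % 2 ^ r := by
    rw [← Nat.add_assoc, ← Nat.add_assoc, h1, hj]
  exact Nat.ModEq.add_right_cancel' (i₀ + 1) h3

theorem cons_take_of {i N : ℕ} (h : i + 1 = N) (b : α) (X : List α) :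
    (b :: X.take i).take N = (b :: X).take N := by
  subst h
  rw [List.take_succ_cons, List.take_succ_cons, List.take_take, Nat.min_self]

/-- the state describes the history -/
def Inv (N i₀ : ℕ) (s τ : List α → α → ZMod 3) (X : List α) (x : St α N) : Prop :=
  x.1 = V N i₀ s τ X ∧ x.2.2.1 = (X.length + i₀) % N ∧
    (x.2.1.1 = X.take N ∨ (x.2.1.1 = X.take x.2.2.1 ∧ x.1 = 0))

theorem inv_fin (hN : N = 2 ^ (r + 1)) (hc : c < N)
    (hsl : ∀ X Y b, X.length % 2 ^ r = Y.length % 2 ^ r → X.take c = Y.take c → s X b = s Y b)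
    (hτl : ∀ X Y b, X.length % 2 ^ r = Y.length % 2 ^ r → X.take c = Y.take c → τ X b = τ Y b)
    (rt : St α N) (hr1 : rt.1 = 0) (hr2 : rt.2.1.1 = []) (hr3 : rt.2.2.1 = 0) (w : List α) :
    ∀ (X : List α) (x : St α N), Inv N i₀ s τ X x →
      Inv N i₀ s τ (w.reverse ++ X)
        (fin (stp (sgE i₀ r c s) (dlE i₀ r c τ)) rt x w) := by
  have hN0 : 0 < N := by rw [hN]; exact pow_pos (by norm_num) _
  have hd : 2 ^ r ∣ N := by rw [hN]; exact pow_dvd_pow 2 (Nat.le_succ r)
  induction w with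
  | nil => intro X x hx; exact hx
  | cons b w ih =>
    intro X x hx
    obtain ⟨h1, h2, h3⟩ := hx
    have hlt : x.2.2.1 < N := x.2.2.2
    -- the sign
    have hK1 : sgE i₀ r c s x.2.2.1 x.2.1.1 b * x.1 = s X b * V N i₀ s τ X := by
      rcases h3 with h3 | ⟨h3, h4⟩
      · rw [sgE_eq hsl (X := X) (j := x.2.2.1) (by rw [h2, Nat.mod_mod_of_dvd _ hd]) (by
          rw [h3, List.take_take, Nat.min_eq_left hc.le]), h1]
      · rw [← h1, h4, mul_zero, mul_zero]
    have hlen : (b :: X).length + i₀ = X.length + i₀ + 1 := by rw [List.length_cons]; omega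
    rw [List.reverse_cons, List.append_assoc, List.singleton_append]
    by_cases h4 : x.2.2.1 + 1 < N
    · obtain ⟨t, h5, h6, h7, h8⟩ := stp_mid (sg := sgE i₀ r c s) (dl := dlE i₀ r c τ) (b := b) h4
      rw [fin_cons_some _ h5]
      have h9 : (X.length + i₀ + 1) % N = x.2.2.1 + 1 := by
        rw [← Nat.mod_add_mod, ← h2, Nat.mod_eq_of_lt h4]
      have h10 : ¬ N ∣ X.length + 1 + i₀ := by
        intro h
        have := Nat.mod_eq_zero_of_dvd h
        rw [show X.length + 1 + i₀ = X.length + i₀ + 1 by omega, h9] at this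
        omega
      refine ih _ _ ⟨?_, ?_, ?_⟩
      · rw [h6, hK1, V, if_neg h10, add_zero]
      · rw [h8, hlen, h9]
      · rcases h3 with h3 | ⟨h3, h11⟩
        · left
          rw [h7, h3, cons_take_take]
        · right
          refine ⟨?_, by rw [h6, h11, mul_zero]⟩
          rw [h7, h8, h3, List.take_succ_cons, List.take_of_length_le]
          rw [List.length_cons, List.length_take]
          have := Nat.min_le_left x.2.2.1 X.length
          omega
    · have h5 : x.2.2.1 + 1 = N := by omega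
      have hH : (b :: x.2.1.1).take N = (b :: X).take N := by
        rcases h3 with h3 | ⟨h3, h11⟩
        · rw [h3, cons_take_take]
        · rw [h3, cons_take_of h5]
      have h9 : (X.length + i₀ + 1) % N = 0 := by
        rw [← Nat.mod_add_mod, ← h2, h5, Nat.mod_self]
      have h10 : N ∣ X.length + 1 + i₀ := by
        rw [show X.length + 1 + i₀ = X.length + i₀ + 1 by omega]
        exact Nat.dvd_of_mod_eq_zero h9
      have hdl : dlE i₀ r c τ ((b :: x.2.1.1).take N) = -τ X b := by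
        rw [hH]
        obtain ⟨M, rfl⟩ : ∃ M, N = M + 1 := ⟨N - 1, by omega⟩
        rw [List.take_succ_cons]
        refine dlE_eq hτl ?_ ?_
        · have h11 := Nat.mod_mod_of_dvd (X.length + i₀ + 1) hd
          rw [h9, Nat.zero_mod] at h11
          exact h11.symm
        · rw [List.take_take, Nat.min_eq_left (Nat.le_of_lt_succ hc)]
      by_cases h6 : sgE i₀ r c s x.2.2.1 x.2.1.1 b * x.1 = dlE i₀ r c τ ((b :: x.2.1.1).take N)
      · rw [fin_cons_none _ (stp_cut h4 h6)]
        refine ih _ _ ⟨?_, ?_, ?_⟩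
        · rw [hK1, hdl] at h6
          rw [hr1, V, if_pos h10, h6, neg_add_cancel]
        · rw [hr3, hlen, h9]
        · right
          exact ⟨by rw [hr2, hr3, List.take_zero], hr1⟩
      · obtain ⟨t, h11, h12, h13, h14⟩ := stp_end (sg := sgE i₀ r c s) (dl := dlE i₀ r c τ) h4 h6
        rw [fin_cons_some _ h11]
        refine ih _ _ ⟨?_, ?_, ?_⟩
        · rw [h12, hK1, hdl, V, if_pos h10, sub_neg_eq_add]
        · rw [h14, hlen, h9]
        · left
          rw [h13, hH]

/-- **the twisted sums of signs at the block ends are known** -/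
theorem knV (α : Type) [Finite α] (r i₀ c : ℕ) (hc : c < 2 ^ (r + 1))
    (s τ : List α → α → ZMod 3)
    (hs : ∀ X b, s X b = 1 ∨ s X b = -1) (hτ : ∀ X b, τ X b = 1 ∨ τ X b = -1)
    (hsl : ∀ X Y b, X.length % 2 ^ r = Y.length % 2 ^ r → X.take c = Y.take c → s X b = s Y b)
    (hτl : ∀ X Y b, X.length % 2 ^ r = Y.length % 2 ^ r → X.take c = Y.take c → τ X b = τ Y b) :
    Kn fun w : List α => V (2 ^ (r + 1)) i₀ s τ w.reverse := by
  have hN0 : 0 < 2 ^ (r + 1) := pow_pos (by norm_num) _
  have hno := nocyc (α := α) (N := 2 ^ (r + 1)) (sg := sgE i₀ r c s) (dl := dlE i₀ r c τ) (q := r)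
    rfl (sgE_pm hs) (dlE_pm hτ) sgE_per
  let rt : St α (2 ^ (r + 1)) := (0, ⟨[], Nat.zero_le _⟩, ⟨0, hN0⟩)
  let st : St α (2 ^ (r + 1)) := (0, ⟨[], Nat.zero_le _⟩, ⟨i₀ % 2 ^ (r + 1), Nat.mod_lt _ hN0⟩)
  have h1 := (Kn.of_event hno rt st).comp fun x => x.1
  intro v
  refine Eq.mp (congrArg (SH 1) ?_) (h1 v)
  ext w
  have h2 : Inv (2 ^ (r + 1)) i₀ s τ [] st :=
    ⟨rfl, by
      change i₀ % 2 ^ (r + 1) = (0 + i₀) % 2 ^ (r + 1)
      rw [Nat.zero_add], Or.inl List.take_nil.symm⟩
  have h3 := (inv_fin (i₀ := i₀) rfl hc hsl hτl rt rfl rfl rfl w [] st h2).1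
  rw [List.append_nil] at h3
  change (fin _ rt st w).1 = v ↔ V _ _ _ _ _ = v
  rw [h3]

end

/-- finite sums of known functions -/
theorem kn_sum {α : Type} {A ι : Type} [AddCommMonoid A] [Finite A] (S : Finset ι)
    {F : ι → List α → A} (h : ∀ i ∈ S, Kn (F i)) : Kn fun w => ∑ i ∈ S, F i w := by
  classical
  induction S using Finset.induction_on with
  | empty => simpa using Kn.const (α := α) (0 : A)
  | insert a S ha ih =>
    have h1 := (h a (Finset.mem_insert_self _ _)).comp₂
      (ih fun i hi => h i (Finset.mem_insert_of_mem hi)) fun x y => x + y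
    intro v
    refine Eq.mp (congrArg (SH 1) ?_) (h1 v)
    ext w
    beta_reduce
    rw [Set.mem_ofPred_eq, Set.mem_ofPred_eq, Finset.sum_insert ha]

/-- exactly one start phase ends a block here -/
theorem sum_phase {A : Type} [AddCommGroup A] (N : ℕ) (hN : 0 < N) (x : A) (L : ℕ) :
    ∑ i ∈ Finset.range N, (if N ∣ L + i then x else 0) = x := by
  induction L with
  | zero =>
    rw [Finset.sum_eq_single 0]
    · exact if_pos (dvd_zero _)
    · intro i hi h0
      rw [if_neg]
      rw [Nat.zero_add]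
      intro h
      have := Nat.le_of_dvd (Nat.pos_of_ne_zero h0) h
      exact absurd (Finset.mem_range.mp hi) (by omega)
    · intro h; exact absurd (Finset.mem_range.mpr hN) h
  | succ L ih =>
    have h1 : ∀ i, (if N ∣ L + 1 + i then x else 0) = (fun i => if N ∣ L + i then x else 0) (i + 1) := by
      intro i
      change _ = if N ∣ L + (i + 1) then x else 0
      rw [show L + 1 + i = L + (i + 1) by omega]
    rw [Finset.sum_congr rfl fun i _ => h1 i]
    have h2 := Finset.sum_range_succ (fun i => if N ∣ L + i then x else 0) N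
    have h3 := Finset.sum_range_succ' (fun i => if N ∣ L + i then x else 0) N
    rw [h2, ih] at h3
    have h4 : (N ∣ L + N) ↔ (N ∣ L + 0) := by
      rw [Nat.add_zero, Nat.dvd_add_self_right]
    simp only [h4] at h3
    exact (add_right_cancel h3).symm

theorem V_add {α : Type} {N i₀ : ℕ} {s τ τ' : List α → α → ZMod 3} (X : List α) :
    V N i₀ s τ X + V N i₀ s τ' X = V N i₀ s (fun X b => τ X b + τ' X b) X := by
  induction X with
  | nil => rfl
  | cons b X ih =>
    rw [V, V, V, ← ih]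
    by_cases h : N ∣ X.length + 1 + i₀
    · rw [if_pos h, if_pos h, if_pos h]; ring
    · rw [if_neg h, if_neg h, if_neg h]; ring

theorem TW_eq {α : Type} {N : ℕ} (hN : 0 < N) {s t : List α → α → ZMod 3} (X : List α) :
    TW s t X = ∑ i ∈ Finset.range N, V N i s t X := by
  induction X with
  | nil => exact (Finset.sum_eq_zero fun i _ => rfl).symm
  | cons b X ih =>
    rw [TW, ih]
    simp only [V]
    rw [Finset.sum_add_distrib, Finset.mul_sum, sum_phase N hN (t X b) (X.length + 1)]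

/-- **twisted sums are known**, with clocks modulo powers of two -/
theorem KT (α : Type) [Finite α] (l c : ℕ) (s t : List α → α → ZMod 3)
    (hs : ∀ X b, s X b = 1 ∨ s X b = -1)
    (hl : ∀ X Y b, X.length % 2 ^ l = Y.length % 2 ^ l → X.take c = Y.take c →
      s X b = s Y b ∧ t X b = t Y b) : Kn fun w : List α => TW s t w.reverse := by
  have hc : c < 2 ^ (l + c + 1) := by
    calc c < 2 ^ c := Nat.lt_two_pow_self
      _ ≤ 2 ^ (l + c + 1) := Nat.pow_le_pow_right (by norm_num) (by omega)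
  have hlc : ∀ X Y : List α, X.length % 2 ^ (l + c) = Y.length % 2 ^ (l + c) →
      X.length % 2 ^ l = Y.length % 2 ^ l := fun X Y h =>
    Nat.ModEq.of_dvd (pow_dvd_pow 2 (by omega)) h
  let τ₁ : List α → α → ZMod 3 := fun X b => if t X b = 0 then 1 else -t X b
  let τ₂ : List α → α → ZMod 3 := fun X b => if t X b = 0 then -1 else -t X b
  have e : ∀ x : ZMod 3, (if x = 0 then (1 : ZMod 3) else -x) + (if x = 0 then -1 else -x) = x := by
    decide
  have e1 : ∀ x : ZMod 3, (if x = 0 then (1 : ZMod 3) else -x) = 1 ∨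
      (if x = 0 then (1 : ZMod 3) else -x) = -1 := by decide
  have e2 : ∀ x : ZMod 3, (if x = 0 then (-1 : ZMod 3) else -x) = 1 ∨
      (if x = 0 then (-1 : ZMod 3) else -x) = -1 := by decide
  have h1 : ∀ i, Kn fun w : List α => V (2 ^ (l + c + 1)) i s τ₁ w.reverse := fun i =>
    knV α (l + c) i c hc s τ₁ hs (fun X b => e1 _)
      (fun X Y b h h' => (hl X Y b (hlc _ _ h) h').1)
      (fun X Y b h h' => by
        change (if t X b = 0 then (1 : ZMod 3) else -t X b) = if t Y b = 0 then 1 else -t Y b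
        rw [(hl X Y b (hlc _ _ h) h').2])
  have h2 : ∀ i, Kn fun w : List α => V (2 ^ (l + c + 1)) i s τ₂ w.reverse := fun i =>
    knV α (l + c) i c hc s τ₂ hs (fun X b => e2 _)
      (fun X Y b h h' => (hl X Y b (hlc _ _ h) h').1)
      (fun X Y b h h' => by
        change (if t X b = 0 then (-1 : ZMod 3) else -t X b) = if t Y b = 0 then -1 else -t Y b
        rw [(hl X Y b (hlc _ _ h) h').2])
  have h3 := kn_sum (Finset.range (2 ^ (l + c + 1))) fun i _ =>
    (h1 i).comp₂ (h2 i) fun x y => x + y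
  intro v
  refine Eq.mp (congrArg (SH 1) ?_) (h3 v)
  ext w
  beta_reduce
  rw [Set.mem_ofPred_eq, Set.mem_ofPred_eq, TW_eq (N := 2 ^ (l + c + 1)) (pow_pos (by norm_num) _)]
  have h4 : ∀ i, V (2 ^ (l + c + 1)) i s τ₁ w.reverse + V (2 ^ (l + c + 1)) i s τ₂ w.reverse =
      V (2 ^ (l + c + 1)) i s t w.reverse := by
    intro i
    rw [V_add]
    congr 1
    funext X b
    exact e _
  rw [Finset.sum_congr rfl fun i _ => h4 i]

end Vale.Agent.P329.H559
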