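import Mathlib.GroupTheory.Nilpotent
import Mathlib.GroupTheory.PGroup
import Mathlib.GroupTheory.Perm.Basic

/-! A definition used to state the results on context products briefly. -/

namespace Vale.Agent.P329.H559

/-- `G` is nilpotent of class at most two: all commutators are central. -/
def ClassTwo (G : Type) [Group G] : Prop :=
  ∀ a b c : G, a * b * a⁻¹ * b⁻¹ * c = c * (a * b * a⁻¹ * b⁻¹)

/-- `n` is positive, and `G` is a divisor (a quotient of a subgroup) of a finite direct product of
finite groups, each of which is abelian, or (if `n` is a power of a prime `p`) a `p`-group, or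
(if `n = 1`) nilpotent, or (if `n` is a power of two) nilpotent of class at most two or the
symmetric group on three points. So for `n = 1` each factor is nilpotent or the symmetric group on
three points; for `n = 2, 4, 8, ...` each factor is a `2`-group, nilpotent of class at most two, or
the symmetric group on three points; for a power `n > 1` of an odd prime `p` each factor is a
`p`-group or abelian; and for every other `n` each factor is abelian. -/
def CtxClass (n : ℕ) (G : Type) [Group G] : Prop :=
  n ≠ 0 ∧ ∃ (ι : Type) (_ : Finite ι) (H : ι → Type) (_ : ∀ i, Group (H i)),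
    (∀ i, Finite (H i) ∧ ((∀ a b : H i, a * b = b * a) ∨
      (∃ p l : ℕ, p.Prime ∧ n = p ^ l ∧ IsPGroup p (H i)) ∨
      (n = 1 ∧ Group.IsNilpotent (H i)) ∨
      ((∃ l : ℕ, n = 2 ^ l) ∧ (ClassTwo (H i) ∨ Nonempty (H i ≃* Equiv.Perm (Fin 3)))))) ∧
    ∃ (D : Subgroup (∀ i, H i)) (π : D →* G), Function.Surjective π

end Vale.Agent.P329.H559
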