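import Vale.Agent.P329.H559.KV
import Vale.Agent.P329.H434.Nil

/-!
# P329 / context products in the symmetric group of three points, with clocks modulo powers of two
-/

set_option linter.all false

namespace Vale.Agent.P329.H559

open Vale.Agent.P329

/-- the linear part -/
def lam (σ : Equiv.Perm (ZMod 3)) : ZMod 3 := σ 1 - σ 0

theorem lam_pm (σ : Equiv.Perm (ZMod 3)) : lam σ = 1 ∨ lam σ = -1 := by
  refine pm_of_ne (sub_ne_zero.mpr fun h => ?_)
  have := σ.injective h
  revert this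
  decide

theorem aff (σ : Equiv.Perm (ZMod 3)) (x : ZMod 3) : σ x = lam σ * x + σ 0 := by
  have h01 : σ 0 ≠ σ 1 := fun h => absurd (σ.injective h) (by decide)
  have h02 : σ 0 ≠ σ 2 := fun h => absurd (σ.injective h) (by decide)
  have h12 : σ 1 ≠ σ 2 := fun h => absurd (σ.injective h) (by decide)
  have h3 : ∀ a b c : ZMod 3, a ≠ b → a ≠ c → b ≠ c → c = (b - a) * 2 + a := by decide
  have h4 : x = 0 ∨ x = 1 ∨ x = 2 := by revert x; decide
  unfold lam
  rcases h4 with rfl | rfl | rfl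
  · rw [mul_zero, zero_add]
  · rw [mul_one, sub_add_cancel]
  · exact h3 _ _ _ h01 h02 h12

theorem lam_mul (σ τ : Equiv.Perm (ZMod 3)) : lam (σ * τ) = lam σ * lam τ := by
  unfold lam
  rw [Equiv.Perm.mul_apply, Equiv.Perm.mul_apply, aff σ (τ 1), aff σ (τ 0)]
  unfold lam
  ring

theorem perm_eq {σ τ : Equiv.Perm (ZMod 3)} (h0 : σ 0 = τ 0) (h1 : lam σ = lam τ) : σ = τ := by
  ext x
  rw [aff σ x, aff τ x, h0, h1]

section

variable {α : Type} (χ : List α → α → Equiv.Perm (ZMod 3))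

theorem hp_zero (X : List α) : (H157.hp χ X)⁻¹ 0 =
    TW (fun X b => lam (χ X b)⁻¹) (fun X b => (χ X b)⁻¹ 0) X := by
  induction X with
  | nil => rfl
  | cons b X ih =>
    rw [H157.hp, mul_inv_rev, Equiv.Perm.mul_apply, aff (χ X b)⁻¹, ih, TW]

theorem hp_lam (X : List α) : lam (H157.hp χ X)⁻¹ =
    TW (fun X b => lam (χ X b)⁻¹) (fun X b => lam (χ X b)⁻¹ - 1) X + 1 := by
  induction X with
  | nil =>
    rw [TW, H157.hp, inv_one]
    rfl
  | cons b X ih =>
    rw [H157.hp, mul_inv_rev, lam_mul, ih, TW]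
    ring

end

/-- **context products in the symmetric group, with clocks modulo powers of two** -/
theorem ctxK_perm3 (l : ℕ) : H434.CtxK (2 ^ l) (Equiv.Perm (ZMod 3)) := by
  intro α _ c χ hχ S
  have h1 := KT α l c (fun X b => lam (χ X b)⁻¹) (fun X b => (χ X b)⁻¹ 0)
    (fun X b => lam_pm _) (fun X Y b h h' => by
      rw [hχ X Y b h h']
      exact ⟨rfl, rfl⟩)
  have h2 := KT α l c (fun X b => lam (χ X b)⁻¹) (fun X b => lam (χ X b)⁻¹ - 1)
    (fun X b => lam_pm _) (fun X Y b h h' => by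
      rw [hχ X Y b h h']
      exact ⟨rfl, rfl⟩)
  have h3 := H434.kn_set (h1.comp₂ h2 fun x y => (x, y))
    {x | ∃ σ ∈ S, σ⁻¹ 0 = x.1 ∧ lam σ⁻¹ = x.2 + 1}
  refine Eq.mp (congrArg (SH 1) ?_) h3
  ext w
  constructor
  · rintro ⟨σ, hσ, h4, h5⟩
    have h6 : σ = H157.hp χ w.reverse := by
      apply inv_injective
      apply perm_eq
      · rw [h4, hp_zero]
      · rw [h5, hp_lam]
    rw [h6] at hσ
    exact hσ
  · intro h
    exact ⟨_, h, hp_zero χ _, hp_lam χ _⟩

/-- the same for permutations of three points -/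
theorem ctxK_fin3 (l : ℕ) : H434.CtxK (2 ^ l) (Equiv.Perm (Fin 3)) := ctxK_perm3 l

end Vale.Agent.P329.H559
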