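import Vale.Agent.P329.H265.AllN
import Vale.Agent.P329.H342.CtxA
import Vale.Agent.P329.H434.Clock

/-! # P329 / context products in abelian groups, all clocks -/

set_option linter.all false

namespace Vale.Agent.P329.H559

open Vale.Agent.P329 Vale.Agent.P329.H67

theorem ctxK_zmodN {n : ℕ} (hn : 0 < n) {m : ℕ} (hm : m ≠ 0) :
    H434.CtxK n (Multiplicative (ZMod m)) := by
  intro α _ c χ hχ S
  haveI : NeZero m := ⟨hm⟩
  have h1 := H265.AllN.stBn hn (H342.wF n c m χ) (fun e W => by
    unfold H342.wF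
    rw [Nat.add_mod_right]) m (Nat.pos_of_ne_zero hm)
  have h2 := H434.kn_set h1 {x | Multiplicative.ofAdd x ∈ S}
  refine Eq.mp (congrArg (SH 1) ?_) h2
  ext w
  change Multiplicative.ofAdd ((oc (c + 1) (H342.wF n c m χ) w.reverse : ℤ) : ZMod m) ∈ S ↔
    H157.hp χ w.reverse ∈ S
  rw [H342.hp_oc hχ]

/-- context products in finite abelian groups, all clocks -/
theorem ctxK_abelN {n : ℕ} (hn : 0 < n) {G : Type} [Group G] [Finite G]
    (hG : ∀ a b : G, a * b = b * a) : H434.CtxK n G := by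
  letI : CommGroup G := { (inferInstance : Group G) with mul_comm := hG }
  obtain ⟨ι, hι, k, hk, ⟨e⟩⟩ := CommGroup.equiv_prod_multiplicative_zmod_of_finite G
  haveI : ∀ i, NeZero (k i) := fun i => ⟨by have := hk i; omega⟩
  exact (H434.CtxK.pi fun i => ctxK_zmodN hn (by have := hk i; omega)).equiv e.symm

/-- clocks -/
theorem locKN {n : ℕ} (hn : 0 < n) : H434.LocK n := by
  haveI : Fact (Nat.Prime 2) := ⟨Nat.prime_two⟩
  exact H434.LocK.of_ctx (p := 2) (ctxK_zmodN hn two_ne_zero)

end Vale.Agent.P329.H559
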