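import Vale.Agent.P329.Bdl.K_Bdl_K_Known
import Mathlib.Data.Nat.Factorization.Basic
import Mathlib.Tactic.Ring

/-!
# P329 / a star-free cut system over the field with three elements with visible clock

Blocks of `N = 2 h` letters, `h = 2 ^ q`. The coordinate `U` is multiplied by a sign at each
letter and moved by an arbitrary `±1` at the end of each block; it is cut at the end of a block
when it would become `0`.
-/

set_option linter.all false

namespace Vale.Agent.P329.H559

open Vale.Agent.P329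

/-- powers of words -/
def pw {α : Type} (z : List α) (n : ℕ) : List α := (List.replicate n z).flatten

section pw

variable {α : Type}

theorem pw_zero (z : List α) : pw z 0 = [] := rfl

theorem pw_succ (z : List α) (n : ℕ) : pw z (n + 1) = z ++ pw z n := by
  unfold pw; rw [List.replicate_succ, List.flatten_cons]

theorem pw_add (z : List α) (m n : ℕ) : pw z (m + n) = pw z m ++ pw z n := by
  induction m with
  | zero => rw [Nat.zero_add, pw_zero, List.nil_append]
  | succ m ih => rw [Nat.add_right_comm, pw_succ, ih, pw_succ, List.append_assoc]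

theorem pw_one (z : List α) : pw z 1 = z := by rw [pw_succ, pw_zero, List.append_nil]

theorem pw_mul (z : List α) (m n : ℕ) : pw z (m * n) = pw (pw z m) n := by
  induction n with
  | zero => rfl
  | succ n ih => rw [Nat.mul_succ, Nat.add_comm, pw_add, ih, pw_succ]

theorem pw_length (z : List α) (n : ℕ) : (pw z n).length = n * z.length := by
  induction n with
  | zero => rw [pw_zero, Nat.zero_mul]; rfl
  | succ n ih => rw [pw_succ, List.length_append, ih, Nat.succ_mul, Nat.add_comm]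

theorem pw_comm (z : List α) (n : ℕ) : pw z n ++ z = z ++ pw z n := by
  rw [← pw_succ, pw_add, pw_one]

theorem run_pw {σ : Type} {δ : σ → α → Option σ} {s : σ} {z : List α}
    (h : run δ s z = some s) (n : ℕ) : run δ s (pw z n) = some s := by
  induction n with
  | zero => rfl
  | succ n ih => rw [pw_succ, run_append _ h, ih]

end pw

theorem take_app_take {α : Type} (A B : List α) (N : ℕ) :
    (A ++ B.take N).take N = (A ++ B).take N := by
  rw [List.take_append, List.take_append, List.take_take, Nat.min_eq_left (Nat.sub_le _ _)]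

theorem cons_take_take {α : Type} (b : α) (B : List α) (N : ℕ) :
    (b :: B.take N).take N = (b :: B).take N := take_app_take [b] B N

/-- the state: coordinate, last letters since the cut, phase -/
abbrev St (α : Type) (N : ℕ) : Type := ZMod 3 × {H : List α // H.length ≤ N} × Fin N

section sys

variable {α : Type} {N : ℕ} (sg : ℕ → List α → α → ZMod 3) (dl : List α → ZMod 3)

/-- the transition -/
def stp (s : St α N) (b : α) : Option (St α N) :=
  let U1 := sg s.2.2.1 s.2.1.1 b * s.1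
  let H1 : {H : List α // H.length ≤ N} := ⟨(b :: s.2.1.1).take N, by
    rw [List.length_take]; exact Nat.min_le_left _ _⟩
  if h : s.2.2.1 + 1 < N then some (U1, H1, ⟨s.2.2.1 + 1, h⟩)
  else if U1 = dl H1.1 then none
  else some (U1 - dl H1.1, H1, ⟨0, Nat.lt_of_le_of_lt (Nat.zero_le _) s.2.2.2⟩)

variable {sg dl}

theorem len_le (b : α) (H : List α) : ((b :: H).take N).length ≤ N := by
  rw [List.length_take]; exact Nat.min_le_left _ _

theorem stp_mid {s : St α N} {b : α} (h : s.2.2.1 + 1 < N) : ∃ t, stp sg dl s b = some t ∧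
    t.1 = sg s.2.2.1 s.2.1.1 b * s.1 ∧ t.2.1.1 = (b :: s.2.1.1).take N ∧
    t.2.2.1 = s.2.2.1 + 1 :=
  ⟨(sg s.2.2.1 s.2.1.1 b * s.1, ⟨(b :: s.2.1.1).take N, len_le _ _⟩, ⟨s.2.2.1 + 1, h⟩), by
    unfold stp; exact dif_pos h, rfl, rfl, rfl⟩

theorem stp_end {s : St α N} {b : α} (h : ¬ s.2.2.1 + 1 < N)
    (hU : sg s.2.2.1 s.2.1.1 b * s.1 ≠ dl ((b :: s.2.1.1).take N)) : ∃ t, stp sg dl s b = some t ∧
    t.1 = sg s.2.2.1 s.2.1.1 b * s.1 - dl ((b :: s.2.1.1).take N) ∧
    t.2.1.1 = (b :: s.2.1.1).take N ∧ t.2.2.1 = 0 :=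
  ⟨(sg s.2.2.1 s.2.1.1 b * s.1 - dl ((b :: s.2.1.1).take N),
    ⟨(b :: s.2.1.1).take N, len_le _ _⟩, ⟨0, Nat.lt_of_le_of_lt (Nat.zero_le _) s.2.2.2⟩), by
    unfold stp; exact (dif_neg h).trans (if_neg hU), rfl, rfl, rfl⟩

theorem stp_cut {s : St α N} {b : α} (h : ¬ s.2.2.1 + 1 < N)
    (hU : sg s.2.2.1 s.2.1.1 b * s.1 = dl ((b :: s.2.1.1).take N)) :
    stp sg dl s b = none := by
  unfold stp; exact (dif_neg h).trans (if_pos hU)

/-- the two ways to survive a letter -/
theorem stp_some {s t : St α N} {b : α} (h : stp sg dl s b = some t) :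
    t.2.1.1 = (b :: s.2.1.1).take N ∧
    ((s.2.2.1 + 1 < N ∧ t.1 = sg s.2.2.1 s.2.1.1 b * s.1 ∧ t.2.2.1 = s.2.2.1 + 1) ∨
      (s.2.2.1 + 1 = N ∧ sg s.2.2.1 s.2.1.1 b * s.1 ≠ dl ((b :: s.2.1.1).take N) ∧
        t.1 = sg s.2.2.1 s.2.1.1 b * s.1 - dl ((b :: s.2.1.1).take N) ∧ t.2.2.1 = 0)) := by
  by_cases h1 : s.2.2.1 + 1 < N
  · obtain ⟨t', h2, h3, h4, h5⟩ := stp_mid (sg := sg) (dl := dl) (b := b) h1
    rw [h2] at h
    cases h
    exact ⟨h4, Or.inl ⟨h1, h3, h5⟩⟩
  · by_cases h2 : sg s.2.2.1 s.2.1.1 b * s.1 = dl ((b :: s.2.1.1).take N)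
    · rw [stp_cut h1 h2] at h; cases h
    · obtain ⟨t', h3, h4, h5, h6⟩ := stp_end (sg := sg) (dl := dl) (b := b) h1 h2
      rw [h3] at h
      cases h
      exact ⟨h5, Or.inr ⟨Nat.le_antisymm s.2.2.2 (Nat.le_of_not_lt h1), h2, h4, h6⟩⟩

theorem run_H {w : List α} : ∀ {s t : St α N}, run (stp sg dl) s w = some t →
    t.2.1.1 = (w.reverse ++ s.2.1.1).take N := by
  induction w with
  | nil =>
    intro s t h
    cases h
    rw [List.reverse_nil, List.nil_append, List.take_of_length_le s.2.1.2]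
  | cons b w ih =>
    intro s t h
    obtain ⟨s1, h1, h2⟩ := run_cons_eq_some h
    rw [ih h2, (stp_some h1).1, take_app_take, List.reverse_cons, List.append_assoc]
    rfl

theorem run_i {w : List α} : ∀ {s t : St α N}, run (stp sg dl) s w = some t →
    t.2.2.1 = (s.2.2.1 + w.length) % N := by
  induction w with
  | nil =>
    intro s t h
    cases h
    rw [List.length_nil, Nat.add_zero, Nat.mod_eq_of_lt s.2.2.2]
  | cons b w ih =>
    intro s t h
    obtain ⟨s1, h1, h2⟩ := run_cons_eq_some h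
    rw [ih h2, List.length_cons]
    rcases (stp_some h1).2 with ⟨h3, _, h5⟩ | ⟨h3, _, _, h5⟩
    · rw [h5]; congr 1; omega
    · rw [h5, Nat.zero_add]
      have : s.2.2.1 + (w.length + 1) = w.length + N := by omega
      rw [this, Nat.add_mod_right]

/-- product of the signs -/
def sgp (sg : ℕ → List α → α → ZMod 3) (N : ℕ) : ℕ → List α → List α → ZMod 3
  | _, _, [] => 1
  | i, H, b :: w => sg i H b * sgp sg N (i + 1) ((b :: H).take N) w

theorem pm_sub {x d : ZMod 3} (hx : x = 1 ∨ x = -1) (hd : d = 1 ∨ d = -1) (h : x ≠ d) :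
    x - d = -x := by
  rcases hx with rfl | rfl <;> rcases hd with rfl | rfl
  · exact absurd rfl h
  · decide
  · decide
  · exact absurd rfl h

theorem pm_of_ne {x : ZMod 3} (h : x ≠ 0) : x = 1 ∨ x = -1 := by
  revert h; revert x; decide

theorem ne_of_pm {x : ZMod 3} (h : x = 1 ∨ x = -1) : x ≠ 0 := by
  revert h; revert x; decide

theorem pm_mul {x y : ZMod 3} (hx : x = 1 ∨ x = -1) (hy : y = 1 ∨ y = -1) :
    x * y = 1 ∨ x * y = -1 := by
  revert hx hy; revert x y; decide

theorem sgp_pm (h1 : ∀ i H b, sg i H b = 1 ∨ sg i H b = -1) {w : List α} : ∀ (i : ℕ) (H : List α),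
    sgp sg N i H w = 1 ∨ sgp sg N i H w = -1 := by
  induction w with
  | nil => intro i H; exact Or.inl rfl
  | cons b w ih => intro i H; exact pm_mul (h1 _ _ _) (ih _ _)

theorem sgp_append (u v : List α) : ∀ (i : ℕ) (H : List α), H.length ≤ N →
    sgp sg N i H (u ++ v) = sgp sg N i H u * sgp sg N (i + u.length) ((u.reverse ++ H).take N) v := by
  induction u with
  | nil =>
    intro i H hH
    rw [List.nil_append, sgp, one_mul, List.reverse_nil, List.nil_append,
      List.take_of_length_le hH]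
    rfl
  | cons b u ih =>
    intro i H hH
    rw [List.cons_append, sgp, sgp, ih _ _ (by rw [List.length_take]; exact Nat.min_le_left _ _),
      take_app_take, List.reverse_cons, List.append_assoc, List.length_cons, mul_assoc]
    congr 3
    omega

theorem sgp_per {h : ℕ} (h2 : ∀ i H b, sg (i + h) H b = sg i H b) {w : List α} :
    ∀ (i : ℕ) (H : List α), sgp sg N (i + h) H w = sgp sg N i H w := by
  induction w with
  | nil => intro i H; rfl
  | cons b w ih =>
    intro i H
    rw [sgp, sgp, h2, Nat.add_right_comm, ih]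

theorem sgp_per_mul {h : ℕ} (h2 : ∀ i H b, sg (i + h) H b = sg i H b) (k : ℕ) {w : List α}
    (i : ℕ) (H : List α) : sgp sg N (i + k * h) H w = sgp sg N i H w := by
  induction k with
  | zero => rw [Nat.zero_mul, Nat.add_zero]
  | succ k ih => rw [Nat.succ_mul, ← Nat.add_assoc, sgp_per h2, ih]

theorem run_U (h1 : ∀ i H b, sg i H b = 1 ∨ sg i H b = -1) (hd : ∀ Z, dl Z = 1 ∨ dl Z = -1)
    (hper : ∀ i H b, sg (i + N) H b = sg i H b)
    {w : List α} : ∀ {s t : St α N}, run (stp sg dl) s w = some t → s.1 ≠ 0 →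
    t.1 = (-1) ^ ((s.2.2.1 + w.length) / N) * sgp sg N s.2.2.1 s.2.1.1 w * s.1 := by
  induction w with
  | nil =>
    intro s t h _
    cases h
    rw [List.length_nil, Nat.add_zero, Nat.div_eq_of_lt s.2.2.2, pow_zero, sgp, one_mul, one_mul]
  | cons b w ih =>
    intro s t h hU
    obtain ⟨s1, h3, h4⟩ := run_cons_eq_some h
    obtain ⟨h5, h6⟩ := stp_some h3
    have hU1 := pm_mul (h1 s.2.2.1 s.2.1.1 b) (pm_of_ne hU)
    rcases h6 with ⟨h7, h8, h9⟩ | ⟨h7, h8, h9, h10⟩
    · rw [ih h4 (by rw [h8]; exact ne_of_pm hU1), h8, h9, h5, sgp, List.length_cons]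
      rw [show s.2.2.1 + 1 + w.length = s.2.2.1 + (w.length + 1) by omega]
      ring
    · have h11 := pm_sub hU1 (hd _) h8
      rw [ih h4 (by rw [h9, h11]; exact neg_ne_zero.mpr (ne_of_pm hU1)), h9, h11, h10, h5, sgp,
        List.length_cons]
      have hN : 0 < N := by omega
      rw [show s.2.2.1 + (w.length + 1) = w.length + N by omega, Nat.add_div_right _ hN, pow_succ,
        h7]
      have h12 : sgp sg N N ((b :: s.2.1.1).take N) w = sgp sg N 0 ((b :: s.2.1.1).take N) w := by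
        have := sgp_per (N := N) (w := w) hper 0 ((b :: s.2.1.1).take N)
        rwa [Nat.zero_add] at this
      rw [h12, Nat.zero_add]
      ring

theorem run_ne (h1 : ∀ i H b, sg i H b = 1 ∨ sg i H b = -1) (hd : ∀ Z, dl Z = 1 ∨ dl Z = -1)
    {w : List α} : ∀ {s t : St α N}, run (stp sg dl) s w = some t → s.1 ≠ 0 → t.1 ≠ 0 := by
  induction w with
  | nil => intro s t h hU; cases h; exact hU
  | cons b w ih =>
    intro s t h hU
    obtain ⟨s1, h3, h4⟩ := run_cons_eq_some h
    have hU1 := pm_mul (h1 s.2.2.1 s.2.1.1 b) (pm_of_ne hU)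
    rcases (stp_some h3).2 with ⟨h7, h8, h9⟩ | ⟨h7, h8, h9, h10⟩
    · exact ih h4 (by rw [h8]; exact ne_of_pm hU1)
    · exact ih h4 (by rw [h9]; exact sub_ne_zero.mpr h8)

/-- after the end of a block the coordinate is not `0` -/
theorem run_unz (h1 : ∀ i H b, sg i H b = 1 ∨ sg i H b = -1) (hd : ∀ Z, dl Z = 1 ∨ dl Z = -1)
    {w : List α} : ∀ {s t : St α N}, run (stp sg dl) s w = some t → N ≤ s.2.2.1 + w.length →
    t.1 ≠ 0 := by
  induction w with
  | nil =>
    intro s t h hw
    have := s.2.2.2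
    rw [List.length_nil] at hw
    omega
  | cons b w ih =>
    intro s t h hw
    rw [List.length_cons] at hw
    obtain ⟨s1, h3, h4⟩ := run_cons_eq_some h
    rcases (stp_some h3).2 with ⟨h7, h8, h9⟩ | ⟨h7, h8, h9, h10⟩
    · exact ih h4 (by rw [h9]; omega)
    · exact run_ne h1 hd h4 (by rw [h9]; exact sub_ne_zero.mpr h8)

/-- two strands do not survive the end of a block -/
theorem cutone (h1 : ∀ i H b, sg i H b = 1 ∨ sg i H b = -1) (hd : ∀ Z, dl Z = 1 ∨ dl Z = -1)
    {w : List α} : ∀ {s s' t t' : St α N}, run (stp sg dl) s w = some t →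
    run (stp sg dl) s' w = some t' → s.1 ≠ 0 → s'.1 = -s.1 → s'.2.1.1 = s.2.1.1 →
    s'.2.2.1 = s.2.2.1 → N ≤ s.2.2.1 + w.length → False := by
  induction w with
  | nil =>
    intro s s' t t' _ _ _ _ _ _ hw
    have := s.2.2.2
    rw [List.length_nil] at hw
    omega
  | cons b w ih =>
    intro s s' t t' h h' hU hU' hH hi hw
    rw [List.length_cons] at hw
    obtain ⟨s1, h3, h4⟩ := run_cons_eq_some h
    obtain ⟨s1', h3', h4'⟩ := run_cons_eq_some h'
    have hU1 := pm_mul (h1 s.2.2.1 s.2.1.1 b) (pm_of_ne hU)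
    obtain ⟨h5, h6⟩ := stp_some h3
    obtain ⟨h5', h6'⟩ := stp_some h3'
    rw [hH, hi, hU'] at h6'
    rw [hH] at h5'
    rcases h6 with ⟨h7, h8, h9⟩ | ⟨h7, h8, h9, h10⟩
    · rcases h6' with ⟨h7', h8', h9'⟩ | ⟨h7', _, _, _⟩
      · refine ih h4 h4' (by rw [h8]; exact ne_of_pm hU1) (by rw [h8', h8]; ring)
          (by rw [h5', h5]) (by rw [h9', h9]) (by rw [h9]; omega)
      · omega
    · rcases h6' with ⟨h7', h8', h9'⟩ | ⟨h7', h8', _, _⟩
      · omega
      · rw [mul_neg] at h8'
        rcases hU1 with h11 | h11 <;> rcases hd ((b :: s.2.1.1).take N) with h12 | h12 <;>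
          rw [h11, h12] at h8 h8'
        · exact h8 rfl
        · exact h8' rfl
        · exact h8' (neg_neg _)
        · exact h8 rfl

/-- the memory is periodic -/
theorem Hfix {s : St α N} {v : List α} {n : ℕ} (hn : 0 < n) (hv : v ≠ [])
    (h : run (stp sg dl) s (pw v n) = some s) : (v.reverse ++ s.2.1.1).take N = s.2.1.1 := by
  have h1 := run_pw h N
  rw [← pw_mul] at h1
  have h2 := run_H h1
  have hv' : 0 < v.length := List.length_pos_iff.mpr hv
  have h3 : N ≤ ((pw v (n * N)).reverse).length := by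
    rw [List.length_reverse, pw_length]
    calc N = 1 * N * 1 := by ring
      _ ≤ n * N * v.length := Nat.mul_le_mul (Nat.mul_le_mul_right N hn) hv'
  have h4 : s.2.1.1 = ((pw v (n * N)).reverse).take N := by
    rw [h2, List.take_append_of_le_length h3]
  rw [h4, take_app_take, ← List.reverse_append, pw_comm, List.reverse_append,
    List.take_append_of_le_length h3]

theorem St.ext {s t : St α N} (h1 : s.1 = t.1) (h2 : s.2.1.1 = t.2.1.1) (h3 : s.2.2.1 = t.2.2.1) :
    s = t := Prod.ext h1 (Prod.ext (Subtype.ext h2) (Fin.ext h3))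

/-- cycles whose length is a multiple of the block length -/
theorem cyc_one (h1 : ∀ i H b, sg i H b = 1 ∨ sg i H b = -1) (hd : ∀ Z, dl Z = 1 ∨ dl Z = -1)
    {s : St α N} {v : List α} {n : ℕ} (hn : 0 < n) (hv : v ≠ []) (hN : N ∣ v.length)
    (h : run (stp sg dl) s (pw v n) = some s) : run (stp sg dl) s v = some s := by
  obtain ⟨m, rfl⟩ : ∃ m, n = m + 1 := ⟨n - 1, by omega⟩
  have h0 := h
  rw [pw_succ] at h0
  obtain ⟨s', h2, h3⟩ := run_append_eq_some h0
  have hv' : 0 < v.length := List.length_pos_iff.mpr hv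
  have hle : N ≤ v.length := Nat.le_of_dvd hv' hN
  have hlen : N ≤ (pw v (m + 1)).length := by
    rw [pw_length]
    calc N ≤ v.length := hle
      _ = 1 * v.length := (one_mul _).symm
      _ ≤ (m + 1) * v.length := Nat.mul_le_mul_right _ (by omega)
  have h4 : run (stp sg dl) s' (pw v (m + 1)) = some s' := by
    have h5 : run (stp sg dl) s (pw v (m + 1) ++ v) = some s' := by
      rw [run_append _ h, h2]
    rw [pw_comm, run_append _ h2] at h5
    exact h5
  have hH : s'.2.1.1 = s.2.1.1 := by rw [run_H h2, Hfix hn hv h]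
  have hi : s'.2.2.1 = s.2.2.1 := by
    obtain ⟨k, hk⟩ := hN
    rw [run_i h2, hk, Nat.add_mul_mod_self_left, Nat.mod_eq_of_lt s.2.2.2]
  have hU : s.1 ≠ 0 := run_unz h1 hd h (by omega)
  have hU' : s'.1 ≠ 0 := run_ne h1 hd h2 hU
  by_cases h5 : s'.1 = s.1
  · rw [h2, St.ext h5 hH hi]
  · exfalso
    have h6 : s'.1 = -s.1 := by
      rcases pm_of_ne hU with h6 | h6 <;> rcases pm_of_ne hU' with h7 | h7 <;>
        rw [h6, h7] at h5 ⊢
      · exact absurd rfl h5
      · exact (neg_neg _).symm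
      · exact absurd rfl h5
    exact cutone h1 hd h h4 hU h6 hH hi (by omega)

/-- **no cycles** -/
theorem nocyc {q : ℕ} (hq : N = 2 ^ (q + 1)) (h1 : ∀ i H b, sg i H b = 1 ∨ sg i H b = -1)
    (hd : ∀ Z, dl Z = 1 ∨ dl Z = -1) (hper : ∀ i H b, sg (i + 2 ^ q) H b = sg i H b) :
    NoCyc (stp (N := N) sg dl) := by
  intro z s n hn hrun
  change run (stp sg dl) s (pw z n) = some s at hrun
  by_cases hz : z = []
  · subst hz; rfl
  have hz' : 0 < z.length := List.length_pos_iff.mpr hz
  by_cases hN : N ∣ z.length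
  · exact cyc_one h1 hd hn hz hN hrun
  exfalso
  obtain ⟨e, m, hm, ha⟩ := Nat.exists_eq_two_pow_mul_odd hz'.ne'
  have he : e ≤ q := by
    by_contra hc
    apply hN
    rw [ha, hq]
    exact (pow_dvd_pow 2 (by omega)).mul_right m
  have hm0 : 0 < m := hm.pos
  have hperN : ∀ i H b, sg (i + N) H b = sg i H b := by
    intro i H b
    rw [hq, pow_succ, Nat.mul_two, ← Nat.add_assoc, hper, hper]
  -- the word `V`
  have hVl : (pw z (2 ^ (q - e))).length = m * 2 ^ q := by
    rw [pw_length, ha, ← mul_assoc, ← pow_add, Nat.sub_add_cancel he, mul_comm]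
  have hV0 : pw z (2 ^ (q - e)) ≠ [] := by
    rw [← List.length_pos_iff, hVl]
    exact Nat.mul_pos hm0 (pow_pos (by norm_num) _)
  have h2 : run (stp sg dl) s (pw (pw (pw z (2 ^ (q - e))) 2) n) = some s := by
    have e1 : pw (pw (pw z (2 ^ (q - e))) 2) n = pw (pw z n) (2 ^ (q - e) * 2) := by
      simp only [← pw_mul]
      congr 1
      ring
    rw [e1]
    exact run_pw hrun _
  have hV2l : (pw (pw z (2 ^ (q - e))) 2).length = N * m := by
    rw [pw_length, hVl, hq, pow_succ]; ring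
  have hV20 : pw (pw z (2 ^ (q - e))) 2 ≠ [] := by
    rw [← List.length_pos_iff, hV2l, hq]
    exact Nat.mul_pos (pow_pos (by norm_num) _) hm0
  have h3 : run (stp sg dl) s (pw (pw z (2 ^ (q - e))) 2) = some s :=
    cyc_one h1 hd hn hV20 (by rw [hV2l]; exact dvd_mul_right _ _) h2
  have h4 := Hfix (n := 2) (by norm_num) hV0 h3
  have hU : s.1 ≠ 0 := run_unz h1 hd h3 (by
    rw [hV2l]
    calc N = N * 1 := (mul_one _).symm
      _ ≤ N * m := Nat.mul_le_mul_left _ hm0
      _ ≤ s.2.2.1 + N * m := Nat.le_add_left _ _)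
  have h5 := run_U h1 hd hperN h3 hU
  have hNp : 0 < N := by rw [hq]; exact pow_pos (by norm_num) _
  have h6 : (s.2.2.1 + (pw (pw z (2 ^ (q - e))) 2).length) / N = m := by
    rw [hV2l, Nat.add_mul_div_left _ _ hNp, Nat.div_eq_of_lt s.2.2.2, Nat.zero_add]
  have h7 : sgp sg N s.2.2.1 s.2.1.1 (pw (pw z (2 ^ (q - e))) 2) = 1 := by
    rw [pw_succ, pw_one, sgp_append _ _ _ _ s.2.1.2, h4, hVl, sgp_per_mul hper]
    rcases sgp_pm (N := N) (w := pw z (2 ^ (q - e))) h1 s.2.2.1 s.2.1.1 with h8 | h8 <;> rw [h8]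
    · exact one_mul 1
    · decide
  rw [h6, h7, hm.neg_one_pow, mul_one] at h5
  have h8 : s.1 = 0 := by
    have : ∀ x : ZMod 3, x = -1 * x → x = 0 := by decide
    exact this _ h5
  exact hU h8

end sys

end Vale.Agent.P329.H559
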