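import Vale.Agent.P329.H559.Ctx
import Vale.Agent.P329.H672.C2.All
import Vale.Agent.P329.H559.CtxN
import Vale.Agent.P329.H559.Cls
import Vale.Agent.P329.H112.Mon
import Vale.Agent.P329.H112.Cls
import Vale.Agent.P329.H157.ReesDef

/-!
# P329 / context products over divisors of products of groups with known context products
-/

set_option linter.all false

namespace Vale.Agent.P329.H559

open Vale.Agent.P329

theorem class_known {n : ℕ} {G : Type} [Group G] (h : CtxClass n G) :
    n ≠ 0 ∧ Finite G ∧ H434.LocK n ∧ H434.CtxK n G := by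
  obtain ⟨hn, ι, hι, H, hg, hH, D, π, hπ⟩ := h
  haveI : ∀ i, Finite (H i) := fun i => (hH i).1
  refine ⟨hn, Finite.of_surjective π hπ, locKN (Nat.pos_of_ne_zero hn),
    (H434.CtxK.pi fun i => ?_).div D π hπ⟩
  rcases (hH i).2 with h1 | ⟨p, l, hp, rfl, h1⟩ | ⟨rfl, h1⟩ | ⟨⟨l, rfl⟩, h1 | h1⟩
  · exact ctxK_abelN (Nat.pos_of_ne_zero hn) h1
  · haveI : Fact p.Prime := ⟨hp⟩
    exact H434.CtxK.clock_p (fun K _ _ hK => H434.CtxK.of_core (H112.core_all p hp) K hK) h1 l
  · exact H434.CtxK.nil_of_core H112.core_all h1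
  · exact H672.C2.ctxK_class2 h1 l
  · obtain ⟨e⟩ := h1
    exact (ctxK_fin3 l).equiv e.symm

theorem class_ctx {n : ℕ} {G : Type} [Group G] (h : CtxClass n G) {α : Type} [Finite α] (c : ℕ)
    (ψ : ZMod n → List α → α → G) :
    (∀ S : Set G, SH 1 {w : List α | ctxProdN n c ψ w ∈ S}) ∧
    (∀ e : GRE (G × α), e.height = 0 →
      SH 1 {w : List α |
        (w.zipIdx.map fun x => (ctxProdN n c ψ (w.take x.2), x.1)) ∈ e.lang}) := by
  obtain ⟨h1, h2, h3, h4⟩ := class_known h
  haveI : NeZero n := ⟨h1⟩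
  exact ⟨fun S => h4.letters c ψ S, fun e he => H434.CtxK.ann h3 h4 c ψ e he⟩

theorem class_rees {G : Type} [Group G] (h : CtxClass 1 G) {α I Λ : Type} [Finite α] [Finite I]
    [Finite Λ] (P : Λ → I → Option G) (f : α → Option (I × G × Λ)) (S : Set (Option (I × G × Λ))) :
    SH 1 {w : List α | ∃ a u, w = a :: u ∧ (u.map f).foldl (reesMul P) (f a) ∈ S} := by
  obtain ⟨_, h2, _, h4⟩ := class_known h
  exact h4.rees P f S

/-- monoids over a group and finitely many context products -/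
theorem win_mon {α : Type} [Finite α] {G : Type} [Group G] (hG : H112.DividesProduct G)
    (f : α → G) {κ : Type} [Finite κ] {K : κ → Type} [∀ j, Group (K j)] (n : κ → ℕ)
    (hK : ∀ j, CtxClass (n j) (K j)) (c : κ → ℕ) (ψ : ∀ j, ZMod (n j) → List α → α → K j)
    {M : Type} [Monoid M] [Finite M] (φ : α → M)
    (hap : ∀ u v : List α, v ≠ [] → (v.map f).prod = 1 →
      (∀ j, n j ∣ v.length ∧ (u ++ v).drop ((u ++ v).length - c j) = u.drop (u.length - c j) ∧
        ctxProdN (n j) (c j) (ψ j) (u ++ v) = ctxProdN (n j) (c j) (ψ j) u) →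
      ∃ k, (v.map φ).prod ^ (k + 1) = (v.map φ).prod ^ k)
    (S : Set M) : SH 1 {w : List α | (w.map φ).prod ∈ S} := by
  obtain ⟨ι, hι, H, hg, hH, D, π, hπ⟩ := hG
  haveI : ∀ i, Finite (H i) := fun i => (hH i).1
  haveI : Finite G := Finite.of_surjective π hπ
  haveI : ∀ j, Finite (K j) := fun j => (class_known (hK j)).2.1
  have h1 := ((H320.final H112.core_all).2.1 α ι H (fun i => (hH i).2) D G π hπ f).1
  exact H112.mal_ctx f h1 n (fun j => (class_known (hK j)).1)
    (fun j => (class_known (hK j)).2.2.1) (fun j => (class_known (hK j)).2.2.2) c ψ φ hap S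

end Vale.Agent.P329.H559
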