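import Vale.Agent.P329.H559.KV
import Mathlib.Data.ZMod.Basic

/-!
# P329 / a star-free cut system with visible clock: walks on an interval

Blocks of `N = 2 ^ (q + 1)` letters. The coordinate `U` modulo `m` is moved by an arbitrary `±1` at
the end of each block and is cut when it would become `0`.
-/

set_option linter.all false

namespace Vale.Agent.P329.H559

open Vale.Agent.P329

/-- the state: coordinate, last letters since the cut, phase -/
abbrev Sw (m : ℕ) (α : Type) (N : ℕ) : Type := ZMod m × {H : List α // H.length ≤ N} × Fin N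

section sys

variable {m : ℕ} [NeZero m] {α : Type} {N : ℕ} (dl : List α → ℤ)

/-- the transition -/
def stw (s : Sw m α N) (b : α) : Option (Sw m α N) :=
  let H1 : {H : List α // H.length ≤ N} := ⟨(b :: s.2.1.1).take N, by
    rw [List.length_take]; exact Nat.min_le_left _ _⟩
  if h : s.2.2.1 + 1 < N then some (s.1, H1, ⟨s.2.2.1 + 1, h⟩)
  else if s.1 - ((dl H1.1 : ℤ) : ZMod m) = 0 then none
  else some (s.1 - ((dl H1.1 : ℤ) : ZMod m), H1, ⟨0, Nat.lt_of_le_of_lt (Nat.zero_le _) s.2.2.2⟩)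

variable {dl}

theorem stw_mid {s : Sw m α N} {b : α} (h : s.2.2.1 + 1 < N) : ∃ t, stw dl s b = some t ∧
    t.1 = s.1 ∧ t.2.1.1 = (b :: s.2.1.1).take N ∧ t.2.2.1 = s.2.2.1 + 1 :=
  ⟨(s.1, ⟨(b :: s.2.1.1).take N, len_le _ _⟩, ⟨s.2.2.1 + 1, h⟩), by
    unfold stw; exact dif_pos h, rfl, rfl, rfl⟩

theorem stw_end {s : Sw m α N} {b : α} (h : ¬ s.2.2.1 + 1 < N)
    (hU : s.1 - ((dl ((b :: s.2.1.1).take N) : ℤ) : ZMod m) ≠ 0) : ∃ t, stw dl s b = some t ∧
    t.1 = s.1 - ((dl ((b :: s.2.1.1).take N) : ℤ) : ZMod m) ∧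
    t.2.1.1 = (b :: s.2.1.1).take N ∧ t.2.2.1 = 0 :=
  ⟨(s.1 - ((dl ((b :: s.2.1.1).take N) : ℤ) : ZMod m),
    ⟨(b :: s.2.1.1).take N, len_le _ _⟩, ⟨0, Nat.lt_of_le_of_lt (Nat.zero_le _) s.2.2.2⟩), by
    unfold stw; exact (dif_neg h).trans (if_neg hU), rfl, rfl, rfl⟩

theorem stw_cut {s : Sw m α N} {b : α} (h : ¬ s.2.2.1 + 1 < N)
    (hU : s.1 - ((dl ((b :: s.2.1.1).take N) : ℤ) : ZMod m) = 0) :
    stw dl s b = none := by
  unfold stw; exact (dif_neg h).trans (if_pos hU)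

/-- the two ways to survive a letter -/
theorem stw_some {s t : Sw m α N} {b : α} (h : stw dl s b = some t) :
    t.2.1.1 = (b :: s.2.1.1).take N ∧
    ((s.2.2.1 + 1 < N ∧ t.1 = s.1 ∧ t.2.2.1 = s.2.2.1 + 1) ∨
      (s.2.2.1 + 1 = N ∧ s.1 - ((dl ((b :: s.2.1.1).take N) : ℤ) : ZMod m) ≠ 0 ∧
        t.1 = s.1 - ((dl ((b :: s.2.1.1).take N) : ℤ) : ZMod m) ∧ t.2.2.1 = 0)) := by
  by_cases h1 : s.2.2.1 + 1 < N
  · obtain ⟨t', h2, h3, h4, h5⟩ := stw_mid (dl := dl) (b := b) h1
    rw [h2] at h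
    cases h
    exact ⟨h4, Or.inl ⟨h1, h3, h5⟩⟩
  · by_cases h2 : s.1 - ((dl ((b :: s.2.1.1).take N) : ℤ) : ZMod m) = 0
    · rw [stw_cut h1 h2] at h; cases h
    · obtain ⟨t', h3, h4, h5, h6⟩ := stw_end (dl := dl) (b := b) h1 h2
      rw [h3] at h
      cases h
      exact ⟨h5, Or.inr ⟨Nat.le_antisymm s.2.2.2 (Nat.le_of_not_lt h1), h2, h4, h6⟩⟩

theorem rnw_H {w : List α} : ∀ {s t : Sw m α N}, run (stw dl) s w = some t →
    t.2.1.1 = (w.reverse ++ s.2.1.1).take N := by
  induction w with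
  | nil =>
    intro s t h
    cases h
    rw [List.reverse_nil, List.nil_append, List.take_of_length_le s.2.1.2]
  | cons b w ih =>
    intro s t h
    obtain ⟨s1, h1, h2⟩ := run_cons_eq_some h
    rw [ih h2, (stw_some h1).1, take_app_take, List.reverse_cons, List.append_assoc]
    rfl

theorem rnw_i {w : List α} : ∀ {s t : Sw m α N}, run (stw dl) s w = some t →
    t.2.2.1 = (s.2.2.1 + w.length) % N := by
  induction w with
  | nil =>
    intro s t h
    cases h
    rw [List.length_nil, Nat.add_zero, Nat.mod_eq_of_lt s.2.2.2]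
  | cons b w ih =>
    intro s t h
    obtain ⟨s1, h1, h2⟩ := run_cons_eq_some h
    rw [ih h2, List.length_cons]
    rcases (stw_some h1).2 with ⟨h3, _, h5⟩ | ⟨h3, _, _, h5⟩
    · rw [h5]; congr 1; omega
    · rw [h5, Nat.zero_add]
      have : s.2.2.1 + (w.length + 1) = w.length + N := by omega
      rw [this, Nat.add_mod_right]

/-- the drift -/
def dr (dl : List α → ℤ) (N : ℕ) : ℕ → List α → List α → ℤ
  | _, _, [] => 0
  | i, H, b :: w => if i + 1 < N then dr dl N (i + 1) ((b :: H).take N) w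
      else dl ((b :: H).take N) + dr dl N 0 ((b :: H).take N) w

/-- a step inside the interval -/
theorem val_step {x : ZMod m} {d : ℤ} (hd : d = 1 ∨ d = -1) (hx : x ≠ 0)
    (h : x - ((d : ℤ) : ZMod m) ≠ 0) :
    ((x - ((d : ℤ) : ZMod m)).val : ℤ) = (x.val : ℤ) - d := by
  have h1 : x.val < m := x.val_lt
  have h2 : x.val ≠ 0 := fun h => hx ((ZMod.val_eq_zero x).mp h)
  have h3 : x - ((d : ℤ) : ZMod m) = (((x.val : ℤ) - d : ℤ) : ZMod m) := by
    push_cast
    rw [ZMod.natCast_zmod_val]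
  have h4 : (0 : ℤ) ≤ (x.val : ℤ) - d := by rcases hd with rfl | rfl <;> omega
  have h5 : (x.val : ℤ) - d ≤ m := by rcases hd with rfl | rfl <;> omega
  have h6 : (x.val : ℤ) - d ≠ m := by
    intro h6
    apply h
    rw [h3, h6]
    simp
  rw [h3, ZMod.val_intCast, Int.emod_eq_of_lt h4 (lt_of_le_of_ne h5 h6)]

theorem rnw_U (hd : ∀ Z, dl Z = 1 ∨ dl Z = -1) {w : List α} : ∀ {s t : Sw m α N},
    run (stw dl) s w = some t → s.1 ≠ 0 →
    t.1 ≠ 0 ∧ (t.1.val : ℤ) = (s.1.val : ℤ) - dr dl N s.2.2.1 s.2.1.1 w := by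
  induction w with
  | nil => intro s t h hU; cases h; exact ⟨hU, by rw [dr, sub_zero]⟩
  | cons b w ih =>
    intro s t h hU
    obtain ⟨s1, h3, h4⟩ := run_cons_eq_some h
    obtain ⟨h5, h6⟩ := stw_some h3
    rcases h6 with ⟨h7, h8, h9⟩ | ⟨h7, h8, h9, h10⟩
    · obtain ⟨h11, h12⟩ := ih h4 (by rw [h8]; exact hU)
      refine ⟨h11, ?_⟩
      rw [h12, h8, h9, h5, dr, if_pos h7]
    · obtain ⟨h11, h12⟩ := ih h4 (by rw [h9]; exact h8)
      refine ⟨h11, ?_⟩
      rw [h12, h9, h10, h5, dr, if_neg (by omega), val_step (hd _) hU h8]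
      ring

/-- after the end of a block the coordinate is not `0` -/
theorem rnw_unz (hd : ∀ Z, dl Z = 1 ∨ dl Z = -1) {w : List α} : ∀ {s t : Sw m α N},
    run (stw dl) s w = some t → N ≤ s.2.2.1 + w.length → t.1 ≠ 0 := by
  induction w with
  | nil =>
    intro s t h hw
    have := s.2.2.2
    rw [List.length_nil] at hw
    omega
  | cons b w ih =>
    intro s t h hw
    rw [List.length_cons] at hw
    obtain ⟨s1, h3, h4⟩ := run_cons_eq_some h
    rcases (stw_some h3).2 with ⟨h7, h8, h9⟩ | ⟨h7, h8, h9, h10⟩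
    · exact ih h4 (by rw [h9]; omega)
    · exact (rnw_U hd h4 (by rw [h9]; exact h8)).1

/-- the parity of the drift is the number of block ends -/
theorem dr_odd (hd : ∀ Z, dl Z = 1 ∨ dl Z = -1) (hN : 0 < N) {w : List α} :
    ∀ (i : ℕ) (H : List α), i < N →
      (dr dl N i H w - (((i + w.length) / N : ℕ) : ℤ)) % 2 = 0 := by
  induction w with
  | nil =>
    intro i H hi
    rw [dr, List.length_nil, Nat.add_zero, Nat.div_eq_of_lt hi]
    rfl
  | cons b w ih =>
    intro i H hi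
    rw [dr, List.length_cons]
    by_cases h : i + 1 < N
    · rw [if_pos h]
      have h1 := ih (i + 1) ((b :: H).take N) h
      rwa [show i + 1 + w.length = i + (w.length + 1) by omega] at h1
    · rw [if_neg h]
      have h1 := ih 0 ((b :: H).take N) hN
      have h2 : (i + (w.length + 1)) / N = (0 + w.length) / N + 1 := by
        rw [show i + (w.length + 1) = 0 + w.length + N by omega, Nat.add_div_right _ hN]
      rw [h2]
      push_cast at h1 ⊢
      rcases hd ((b :: H).take N) with h3 | h3 <;> rw [h3] <;> omega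

/-- the memory is periodic -/
theorem Hfw {s : Sw m α N} {v : List α} {n : ℕ} (hn : 0 < n) (hv : v ≠ [])
    (h : run (stw dl) s (pw v n) = some s) : (v.reverse ++ s.2.1.1).take N = s.2.1.1 := by
  have h1 := run_pw h N
  rw [← pw_mul] at h1
  have h2 := rnw_H h1
  have hv' : 0 < v.length := List.length_pos_iff.mpr hv
  have h3 : N ≤ ((pw v (n * N)).reverse).length := by
    rw [List.length_reverse, pw_length]
    calc N = 1 * N * 1 := by ring
      _ ≤ n * N * v.length := Nat.mul_le_mul (Nat.mul_le_mul_right N hn) hv'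
  have h4 : s.2.1.1 = ((pw v (n * N)).reverse).take N := by
    rw [h2, List.take_append_of_le_length h3]
  rw [h4, take_app_take, ← List.reverse_append, pw_comm, List.reverse_append,
    List.take_append_of_le_length h3]

theorem Sw.ext {s t : Sw m α N} (h1 : s.1 = t.1) (h2 : s.2.1.1 = t.2.1.1)
    (h3 : s.2.2.1 = t.2.2.1) : s = t := Prod.ext h1 (Prod.ext (Subtype.ext h2) (Fin.ext h3))

/-- cycles whose length is a multiple of the block length -/
theorem cyw_one (hd : ∀ Z, dl Z = 1 ∨ dl Z = -1)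
    {s : Sw m α N} {v : List α} {n : ℕ} (hn : 0 < n) (hv : v ≠ []) (hN : N ∣ v.length)
    (h : run (stw dl) s (pw v n) = some s) :
    run (stw dl) s v = some s ∧ s.1 ≠ 0 ∧ dr dl N s.2.2.1 s.2.1.1 v = 0 := by
  have hv' : 0 < v.length := List.length_pos_iff.mpr hv
  have hle : N ≤ v.length := Nat.le_of_dvd hv' hN
  have hlen : N ≤ (pw v n).length := by
    rw [pw_length]
    calc N ≤ v.length := hle
      _ = 1 * v.length := (one_mul _).symm
      _ ≤ n * v.length := Nat.mul_le_mul_right _ hn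
  have hU : s.1 ≠ 0 := rnw_unz hd h (by omega)
  have hHf := Hfw hn hv h
  -- iterates
  have key : ∀ k, k ≤ n → ∃ t, run (stw dl) s (pw v k) = some t ∧ t.2.1.1 = s.2.1.1 ∧
      t.2.2.1 = s.2.2.1 ∧ (t.1.val : ℤ) = (s.1.val : ℤ) - k * dr dl N s.2.2.1 s.2.1.1 v := by
    intro k
    induction k with
    | zero => intro _; exact ⟨s, rfl, rfl, rfl, by simp⟩
    | succ k ih =>
      intro hk
      obtain ⟨t, h1, h2, h3, h4⟩ := ih (by omega)
      have h5 : pw v n = pw v (k + 1) ++ pw v (n - (k + 1)) := by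
        rw [← pw_add]; congr 1; omega
      rw [h5] at h
      obtain ⟨t', h6, -⟩ := run_append_eq_some h
      have h7 : run (stw dl) t v = some t' := by
        rw [pw_succ, ← pw_comm, run_append _ h1] at h6
        exact h6
      have h8 : t.1 ≠ 0 := (rnw_U hd h1 hU).1
      refine ⟨t', h6, ?_, ?_, ?_⟩
      · rw [rnw_H h7, h2, hHf]
      · obtain ⟨c, hc⟩ := hN
        rw [rnw_i h7, h3, hc, Nat.add_mul_mod_self_left, Nat.mod_eq_of_lt s.2.2.2]
      · rw [(rnw_U hd h7 h8).2, h4, h2, h3]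
        push_cast
        ring
  obtain ⟨t, h1, h2, h3, h4⟩ := key n le_rfl
  rw [h] at h1
  cases h1
  have h5 : (n : ℤ) * dr dl N s.2.2.1 s.2.1.1 v = 0 := by linarith
  have h6 : dr dl N s.2.2.1 s.2.1.1 v = 0 := by
    rcases mul_eq_zero.mp h5 with h7 | h7
    · exact absurd (Int.natCast_eq_zero.mp h7) hn.ne'
    · exact h7
  obtain ⟨t, h7, h8, h9, h10⟩ := key 1 hn
  rw [pw_one] at h7
  rw [h6, mul_zero, sub_zero] at h10
  have h11 : t.1 = s.1 := ZMod.val_injective m (by exact_mod_cast h10)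
  exact ⟨by rw [h7, Sw.ext h11 h8 h9], hU, h6⟩

/-- **no cycles** -/
theorem nocyw {q : ℕ} (hq : N = 2 ^ (q + 1)) (hd : ∀ Z, dl Z = 1 ∨ dl Z = -1) :
    NoCyc (stw (m := m) (N := N) dl) := by
  intro z s n hn hrun
  change run (stw dl) s (pw z n) = some s at hrun
  by_cases hz : z = []
  · subst hz; rfl
  have hz' : 0 < z.length := List.length_pos_iff.mpr hz
  by_cases hN : N ∣ z.length
  · exact (cyw_one hd hn hz hN hrun).1
  exfalso
  obtain ⟨e, k, hk, ha⟩ := Nat.exists_eq_two_pow_mul_odd hz'.ne'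
  have he : e ≤ q := by
    by_contra hc
    apply hN
    rw [ha, hq]
    exact (pow_dvd_pow 2 (by omega)).mul_right k
  have hk0 : 0 < k := hk.pos
  have hNp : 0 < N := by rw [hq]; exact pow_pos (by norm_num) _
  have hVl : (pw z (2 ^ (q + 1 - e))).length = N * k := by
    rw [pw_length, ha, ← mul_assoc, ← pow_add, Nat.sub_add_cancel (by omega), hq]
  have hV0 : pw z (2 ^ (q + 1 - e)) ≠ [] := by
    rw [← List.length_pos_iff, hVl]
    exact Nat.mul_pos hNp hk0
  have h2 : run (stw dl) s (pw (pw z (2 ^ (q + 1 - e))) n) = some s := by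
    have e1 : pw (pw z (2 ^ (q + 1 - e))) n = pw (pw z n) (2 ^ (q + 1 - e)) := by
      simp only [← pw_mul]
      congr 1
      ring
    rw [e1]
    exact run_pw hrun _
  obtain ⟨-, -, h3⟩ := cyw_one hd hn hV0 (by rw [hVl]; exact dvd_mul_right _ _) h2
  have h4 := dr_odd hd hNp (w := pw z (2 ^ (q + 1 - e))) s.2.2.1 s.2.1.1 s.2.2.2
  have h6 : (s.2.2.1 + (pw z (2 ^ (q + 1 - e))).length) / N = k := by
    rw [hVl, Nat.add_mul_div_left _ _ hNp, Nat.div_eq_of_lt s.2.2.2, Nat.zero_add]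
  rw [h3, h6] at h4
  obtain ⟨j, hj⟩ := hk
  rw [hj] at h4
  push_cast at h4
  omega

end sys

end Vale.Agent.P329.H559
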